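import Vale.Agent.P268.T.H240.LDef
import Vale.Agent.P268.T.H327.Geo
import Vale.Agent.P268.T.DeltaR

/-!
# P268, topological half: the left family satisfies the global conditions

`lplates_base`: continuity, homogeneity and separation for the plates of the left family.
-/

set_option linter.unusedSectionVars false

namespace Vale.Agent.P268.T.H782

open Set Filter Topology Metric
open Vale.Agent.P268.T.H240

/-! ### The functions `lT` and `lW` -/

theorem lT_smul {k : ℝ} (hk : 0 ≤ k) (r0 K u g w z : ℝ) :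
    lT r0 K u (k * g) (k * w) (k * z) = k * lT r0 K u g w z := by
  unfold lT
  rw [mul_max_of_nonneg _ _ hk, mul_min_of_nonneg _ _ hk, mul_zero]
  congr 2 <;> ring

theorem lT_nonneg (r0 K u g w z : ℝ) : 0 ≤ lT r0 K u g w z := le_max_left _ _

theorem lT_le {r0 g : ℝ} (h : 0 ≤ r0 * g) (K u w z : ℝ) : lT r0 K u g w z ≤ r0 * g :=
  max_le h (min_le_left _ _)

theorem lW_smul {k : ℝ} (hk : 0 ≤ k) (r0 K θ u g w z l : ℝ) :
    lW r0 K θ u (k * g) (k * w) (k * z) (k * l) = k * lW r0 K θ u g w z l := by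
  unfold lW
  rw [lT_smul hk, mul_max_of_nonneg _ _ hk, mul_max_of_nonneg _ _ hk]
  have e1 : |k * l - 3 / 2 * r0 * (k * g)| = k * |l - 3 / 2 * r0 * g| := by
    rw [show k * l - 3 / 2 * r0 * (k * g) = k * (l - 3 / 2 * r0 * g) by ring, abs_mul,
      abs_of_nonneg hk]
  rw [e1]
  congr 2 <;> ring

theorem lW_ge1 (r0 K θ u g w z l : ℝ) :
    K * w + (1 - θ) * l + θ * |l - 3 / 2 * r0 * g| ≤ lW r0 K θ u g w z l :=
  (le_max_left _ _).trans (le_max_left _ _)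

theorem lW_ge2 (r0 K θ u g w z l : ℝ) : l - 2 * r0 * g ≤ lW r0 K θ u g w z l :=
  (le_max_right _ _).trans (le_max_left _ _)

theorem lW_ge3 (r0 K θ u g w z l : ℝ) : lT r0 K u g w z - l ≤ lW r0 K θ u g w z l :=
  le_max_right _ _

/-- The window of the hairpin plate. -/
theorem lW_window {r0 K θ u g w z l δ : ℝ} (hθ : θ ∈ Icc (0 : ℝ) 1)
    (h : |lW r0 K θ u g w z l| < δ) :
    -δ < l ∧ l < 2 * r0 * g + δ ∧ K * w < 2 * δ := by
  rw [abs_lt] at h
  have h1 := lW_ge1 r0 K θ u g w z l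
  have h2 := lW_ge2 r0 K θ u g w z l
  have h3 := lW_ge3 r0 K θ u g w z l
  have h4 := lT_nonneg r0 K u g w z
  have hδ : 0 < δ := by linarith [h.1, h.2]
  refine ⟨by linarith, by linarith, ?_⟩
  have h5 : 0 ≤ θ * |l - 3 / 2 * r0 * g| := mul_nonneg hθ.1 (abs_nonneg _)
  have h6 : -δ ≤ (1 - θ) * l := by
    rcases le_total 0 l with hl | hl
    · have := mul_nonneg (sub_nonneg.mpr hθ.2) hl
      linarith
    · have h7 : l ≤ (1 - θ) * l := by
        have := mul_nonpos_of_nonneg_of_nonpos hθ.1 hl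
        linarith
      linarith
  linarith

/-! ### The chart at the wall -/

variable {T V κ ι : Type*} [TopologicalSpace T] [NormedAddCommGroup V] [InnerProductSpace ℝ V]
  [Fintype ι] [DecidableEq ι]

theorem kap_le_of {s : ℝ × (ι → ℝ)} (hs : s ≠ 0) {i₀ : ι} {c : ℝ} (hc : 0 ≤ c)
    (h : s.2 i₀ ≤ c * ‖s‖) : kap s i₀ ≤ 2 * c := by
  have hg := gmax_pos hs
  have h1 := norm_le_gmax s
  rw [kap_apply, div_mul_eq_mul_div, div_le_iff₀ hg]
  have h2 : c * ‖s‖ ≤ c * gmax s := mul_le_mul_of_nonneg_left h1 hc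
  linarith

theorem le_kap_of {s : ℝ × (ι → ℝ)} (hs : s ≠ 0) {i₀ : ι} {c : ℝ} (hc : 0 ≤ c)
    (h : -(c * ‖s‖) ≤ s.2 i₀) : -(2 * c) ≤ kap s i₀ := by
  have hg := gmax_pos hs
  have h1 := norm_le_gmax s
  rw [kap_apply, div_mul_eq_mul_div, le_div_iff₀ hg]
  have h2 : c * ‖s‖ ≤ c * gmax s := mul_le_mul_of_nonneg_left h1 hc
  linarith

theorem lf_eq_self {x : ι → ℝ} {i₀ : ι} (h : x i₀ ≤ 0) : lf i₀ 0 x = x := by
  unfold lf
  rw [min_eq_left h, Function.update_eq_self]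

theorem continuous_lf (i₀ : ι) (c : ℝ) : Continuous (lf i₀ c : (ι → ℝ) → ι → ℝ) := by
  unfold lf
  exact continuous_id.update i₀ (by fun_prop)

theorem lf_maps (i₀ : ι) : MapsTo (lf i₀ 0 : (ι → ℝ) → ι → ℝ) (closedBall 0 1)
    {x | x ∈ closedBall (0 : ι → ℝ) 1 ∧ x i₀ ≤ 0} := fun x hx =>
  ⟨mem_closedBall_zero_iff.mpr (lf_mem (by norm_num) (mem_closedBall_zero_iff.mp hx)),
    lf_apply_le i₀ 0 x⟩

/-! ### The fold vector -/

section Vec

variable {f y e : V}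

/-- The components of the vector `y + (W - ⟪y, f⟫) f`. -/
theorem fold_comp (hf : ‖f‖ = 1) (y : V) (W : ℝ) :
    inner ℝ (y + (W - inner ℝ y f) • f) f = W := by
  rw [inner_add_left, real_inner_smul_left, real_inner_self_eq_norm_sq, hf]
  ring

theorem abs_le_fold (hf : ‖f‖ = 1) (y : V) (W : ℝ) : |W| ≤ ‖y + (W - inner ℝ y f) • f‖ := by
  have h1 := abs_real_inner_le_norm (y + (W - inner ℝ y f) • f) f
  rwa [fold_comp hf, hf, mul_one] at h1

theorem norm_perp_le_fold (hf : ‖f‖ = 1) (y : V) (W : ℝ) :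
    ‖y - inner ℝ y f • f‖ ≤ ‖y + (W - inner ℝ y f) • f‖ := by
  have e1 : y + (W - inner ℝ y f) • f = (y - inner ℝ y f • f) + W • f := by
    rw [sub_smul]; abel
  have e2 : inner ℝ (y - inner ℝ y f • f) (W • f) = 0 := by
    rw [inner_sub_left, real_inner_smul_right, real_inner_smul_right, real_inner_smul_left,
      real_inner_self_eq_norm_sq, hf]
    ring
  have h1 : ‖y + (W - inner ℝ y f) • f‖ ^ 2 = ‖y - inner ℝ y f • f‖ ^ 2 + ‖W • f‖ ^ 2 := by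
    rw [e1, norm_add_sq_real, e2]
    ring
  exact le_of_sq_le_sq (by rw [h1]; nlinarith [sq_nonneg ‖W • f‖]) (norm_nonneg _)

theorem norm_le_fold (hf : ‖f‖ = 1) (y : V) (W : ℝ) :
    ‖y‖ ≤ |inner ℝ y f| + ‖y + (W - inner ℝ y f) • f‖ := by
  have h1 : y = (y - inner ℝ y f • f) + inner ℝ y f • f := by abel
  have h2 : ‖y‖ ≤ ‖y - inner ℝ y f • f‖ + ‖inner ℝ y f • f‖ := by
    conv_lhs => rw [h1]
    exact norm_add_le _ _
  rw [norm_smul, hf, mul_one, Real.norm_eq_abs] at h2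
  linarith [norm_perp_le_fold hf y W]

end Vec

/-! ### Nearly active plates -/

section Near

variable {i₀ : ι} {e : V} {j : κ} {ε R M K : ℝ} {D : LData κ (ι → ℝ) V} {θ u : T → ℝ} {s : Set T}

theorem LAdm.r0_pos (h : LAdm i₀ e j ε R M K D) : 0 < D.r0 := by linarith [h.hr, h.hε]

theorem LAdm.R_pos (h : LAdm i₀ e j ε R M K D) : 0 < R := by linarith [h.hR, h.hε]

theorem LAdm.M_pos (h : LAdm i₀ e j ε R M K D) : 0 < M := by
  linarith [h.hM, LAdm.R_pos h]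

theorem LAdm.K_pos (h : LAdm i₀ e j ε R M K D) : 0 < K := by
  linarith [h.hK, LAdm.r0_pos h]

variable {τ : T} {x : (ℝ × (ι → ℝ)) × V}

theorem near_tp {a : HIx κ}
    (h : -ε * ‖x.1‖ < (lplates i₀ e ε R M K D θ u).rho τ a x) :
    ‖(lplates i₀ e ε R M K D θ u).w τ a x‖ <
      (lplates i₀ e ε R M K D θ u).r τ a x + ε * ‖x.1‖ := by
  have h1 := lt_of_lt_of_le h (min_le_left _ _)
  unfold SheetData.tp at h1
  linarith

/-- A domain function `M * t` greater than `- ε g`. -/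
theorem near_dom (h : LAdm i₀ e j ε R M K D) {g t : ℝ} (hg : 0 < g) (h1 : -ε * g < M * t) :
    -(D.r0 * g) < t := by
  have hM := LAdm.M_pos h
  have h2 : ε * g ≤ M * (D.r0 * g) := by
    have h3 : ε ≤ M * D.r0 := by linarith [h.hR, h.hMr, LAdm.R_pos h]
    calc ε * g ≤ M * D.r0 * g := mul_le_mul_of_nonneg_right h3 hg.le
      _ = _ := by ring
  by_contra h4
  have h5 : M * t ≤ M * (-(D.r0 * g)) := mul_le_mul_of_nonneg_left (not_lt.mp h4) hM.le
  linarith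

/-- The sheets `k` and `t`, nearly active: on the left. -/
theorem near_left (h : LAdm i₀ e j ε R M K D) (hs : x.1 ≠ 0)
    (h1 : -ε * ‖x.1‖ < ldom i₀ M K D.r0 x.1) :
    K * x.1.2 i₀ < -(2 * D.r0 * ‖x.1‖) ∧ kap x.1 i₀ ≤ 0 ∧ 0 < x.1.1 := by
  have hg : 0 < ‖x.1‖ := norm_pos_iff.mpr hs
  have hr := LAdm.r0_pos h
  have hK := LAdm.K_pos h
  have h2 := near_dom h hg (lt_of_lt_of_le h1 (min_le_right _ _))
  have h4 : K * x.1.2 i₀ < -(2 * D.r0 * ‖x.1‖) := by linarith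
  have h5 : x.1.2 i₀ ≤ 0 := by
    by_contra h6
    have h7 := mul_pos hK (not_le.mp h6)
    have h8 := mul_pos hr hg
    linarith
  refine ⟨h4, ?_, ?_⟩
  · have := kap_le_of hs (c := 0) le_rfl (i₀ := i₀) (by linarith)
    linarith
  · -- `M (u₀ - |p| / 2) > - ε g`, `ε ≤ M / 16`
    have hM := LAdm.M_pos h
    have h6 : -ε * ‖x.1‖ < M * (x.1.1 - ‖x.1.2‖ / 2) := lt_of_lt_of_le h1 (min_le_left _ _)
    have h7 : ε * ‖x.1‖ ≤ M * (‖x.1‖ / 16) := by
      have h8 : ε ≤ M / 16 := by linarith [h.hR, h.hM]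
      calc ε * ‖x.1‖ ≤ M / 16 * ‖x.1‖ := mul_le_mul_of_nonneg_right h8 hg.le
        _ = _ := by ring
    have h8 : M * (-(‖x.1‖ / 16)) < M * (x.1.1 - ‖x.1.2‖ / 2) := by linarith
    have h9 := lt_of_mul_lt_mul_left h8 hM.le
    by_contra h10
    have h11 := not_lt.mp h10
    rw [norm_base, abs_of_nonpos h11] at h9 hg
    have h12 := norm_nonneg x.1.2
    rcases le_total (-x.1.1) ‖x.1.2‖ with h13 | h13
    · rw [max_eq_right h13] at h9 hg
      linarith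
    · rw [max_eq_left h13] at h9 hg
      linarith

/-- **The window of the hairpin plate**, nearly active. -/
theorem near_fold (h : LAdm i₀ e j ε R M K D) (hθ : θ τ ∈ Icc (0 : ℝ) 1) (hs : x.1 ≠ 0)
    (h1 : -ε * ‖x.1‖ < (lplates i₀ e ε R M K D θ u).rho τ .fold x) :
    -(5 * D.r0 * ‖x.1‖) < K * x.1.2 i₀ ∧ K * x.1.2 i₀ < 4 * ε * ‖x.1‖ ∧
      -(1 / 4) ≤ kap x.1 i₀ ∧ kap x.1 i₀ ≤ 1 / 4 ∧
      ‖x.2 - ‖x.1‖ • D.vj‖ < 2 * D.r0 * ‖x.1‖ + 4 * ε * ‖x.1‖ ∧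
      -(2 * ε * ‖x.1‖) < inner ℝ (x.2 - ‖x.1‖ • D.vj) D.f ∧
      inner ℝ (x.2 - ‖x.1‖ • D.vj) D.f < 2 * D.r0 * ‖x.1‖ + 2 * ε * ‖x.1‖ := by
  have hg : 0 < ‖x.1‖ := norm_pos_iff.mpr hs
  have hr := LAdm.r0_pos h
  have hK := LAdm.K_pos h
  have hε := h.hε
  have h2 : ‖x.2 - ‖x.1‖ • D.vj +
      (lW D.r0 K (θ τ) (u τ) ‖x.1‖ (x.1.2 i₀) x.1.1 (inner ℝ (x.2 - ‖x.1‖ • D.vj) D.f) -
        inner ℝ (x.2 - ‖x.1‖ • D.vj) D.f) • D.f‖ < ε * ‖x.1‖ + ε * ‖x.1‖ := near_tp h1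
  set y := x.2 - ‖x.1‖ • D.vj with hy
  set l := inner ℝ y D.f with hl
  set W := lW D.r0 K (θ τ) (u τ) ‖x.1‖ (x.1.2 i₀) x.1.1 l with hW
  have h3 : |W| < 2 * ε * ‖x.1‖ := by
    have := abs_le_fold h.ff y W
    rw [← hl] at this
    linarith
  obtain ⟨w1, w2, w3⟩ := lW_window hθ (by rw [← hW]; exact h3)
  have h4 : -(5 * D.r0 * ‖x.1‖) < K * x.1.2 i₀ := by
    have h5 : -ε * ‖x.1‖ < M * (K * x.1.2 i₀ + 4 * D.r0 * ‖x.1‖) :=
      lt_of_lt_of_le (lt_of_lt_of_le h1 (min_le_right _ _)) (min_le_right _ _)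
    have := near_dom h hg h5
    linarith
  have hx1 : -(5 / 64 * ‖x.1‖) ≤ x.1.2 i₀ := by
    have h5 : -(5 * D.r0 * ‖x.1‖) ≤ K * x.1.2 i₀ := h4.le
    have h6 : 64 * D.r0 * (5 / 64 * ‖x.1‖) ≤ K * (5 / 64 * ‖x.1‖) :=
      mul_le_mul_of_nonneg_right h.hK (by positivity)
    have h7 : K * (-(5 / 64 * ‖x.1‖)) ≤ K * x.1.2 i₀ := by linarith
    exact le_of_mul_le_mul_left h7 hK
  have hx2 : x.1.2 i₀ ≤ 1 / 8 * ‖x.1‖ := by
    have h5 : K * x.1.2 i₀ ≤ K * (1 / 8 * ‖x.1‖) := by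
      have h6 : 64 * D.r0 * (1 / 8 * ‖x.1‖) ≤ K * (1 / 8 * ‖x.1‖) :=
        mul_le_mul_of_nonneg_right h.hK (by positivity)
      have h7 : ε * ‖x.1‖ ≤ D.r0 / 32 * ‖x.1‖ :=
        mul_le_mul_of_nonneg_right (by linarith [h.hr]) hg.le
      have h8 := mul_pos hr hg
      linarith
    exact le_of_mul_le_mul_left h5 hK
  refine ⟨h4, by linarith, ?_, ?_, ?_, by linarith, by linarith⟩
  · have := le_kap_of hs (c := 5 / 64) (by norm_num) hx1
    linarith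
  · have := kap_le_of hs (c := 1 / 8) (by norm_num) hx2
    linarith
  · have h5 := norm_le_fold h.ff y W
    rw [← hl] at h5
    have h6 : |l| < 2 * D.r0 * ‖x.1‖ + 2 * ε * ‖x.1‖ := by
      rw [abs_lt]
      have := mul_pos hr hg
      exact ⟨by linarith, w2⟩
    linarith

/-! ### The imaginary parts -/

theorem be_slab : (lplates i₀ e ε R M K D θ u).be τ .slab x = inner ℝ x.2 e := rfl

theorem be_t (h : LAdm i₀ e j ε R M K D) :
    (lplates i₀ e ε R M K D θ u).be τ (.sh (.inr false)) x = inner ℝ x.2 e := by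
  show inner ℝ (x.2 - ‖x.1‖ • D.vj -
    lT D.r0 K (u τ) ‖x.1‖ (x.1.2 i₀) x.1.1 • D.f) e = _
  rw [inner_sub_left, inner_sub_left, real_inner_smul_left, real_inner_smul_left, h.ve, h.fe]
  ring

theorem be_fold (h : LAdm i₀ e j ε R M K D) :
    (lplates i₀ e ε R M K D θ u).be τ .fold x = inner ℝ x.2 e := by
  show inner ℝ (x.2 - ‖x.1‖ • D.vj +
      (lW D.r0 K (θ τ) (u τ) ‖x.1‖ (x.1.2 i₀) x.1.1 (inner ℝ (x.2 - ‖x.1‖ • D.vj) D.f) -
        inner ℝ (x.2 - ‖x.1‖ • D.vj) D.f) • D.f) e = _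
  rw [inner_add_left, inner_sub_left, real_inner_smul_left, real_inner_smul_left, h.ve, h.fe]
  ring

theorem be_j (h : LAdm i₀ e j ε R M K D) (hx : kap x.1 i₀ ≤ 1 / 4) :
    (lplates i₀ e ε R M K D θ u).be τ (.sh (.inl j)) x = inner ℝ x.2 e := by
  obtain ⟨h1, h2⟩ := h.jb _ (kap_mem x.1) hx
  show inner ℝ (x.2 - ‖x.1‖ • D.b j (kap x.1)) (D.n j (kap x.1)) = _
  rw [h1, h2, inner_sub_left, real_inner_smul_left, h.ve]
  ring

theorem be_k (h : LAdm i₀ e j ε R M K D) (hx : kap x.1 i₀ ≤ 0) (hx' : -(1 / 4) ≤ kap x.1 i₀) :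
    (lplates i₀ e ε R M K D θ u).be τ (.sh (.inr true)) x = inner ℝ x.2 e := by
  obtain ⟨h1, h2⟩ := h.kb _ (kap_mem x.1) hx' hx
  show inner ℝ (x.2 - ‖x.1‖ • D.bk (lf i₀ 0 (kap x.1))) (D.nk (lf i₀ 0 (kap x.1))) = _
  rw [lf_eq_self hx, h1, h2, inner_sub_left, real_inner_smul_left, inner_add_left,
    real_inner_smul_left, h.ve, h.fe]
  ring

theorem be_k_collar (h : LAdm i₀ e j ε R M K D) (hx : kap x.1 i₀ ≤ 0) (hx' : ‖kap x.1‖ = 1) :
    (lplates i₀ e ε R M K D θ u).be τ (.sh (.inr true)) x = inner ℝ x.2 e := by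
  obtain ⟨h1, h2⟩ := h.hbk _ hx' hx
  show inner ℝ (x.2 - ‖x.1‖ • D.bk (lf i₀ 0 (kap x.1))) (D.nk (lf i₀ 0 (kap x.1))) = _
  rw [lf_eq_self hx, h2, inner_sub_left, real_inner_smul_left, h1]
  ring

theorem be_oth_collar (h : LAdm i₀ e j ε R M K D) (a : κ) (hx' : ‖kap x.1‖ = 1) :
    (lplates i₀ e ε R M K D θ u).be τ (.sh (.inl a)) x = inner ℝ x.2 e := by
  show inner ℝ (x.2 - ‖x.1‖ • D.b a (kap x.1)) (D.n a (kap x.1)) = _
  rw [h.oth.nh () (mem_univ _) a _ hx', inner_sub_left, real_inner_smul_left,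
    h.oth.bh () (mem_univ _) a _ hx', mul_zero, sub_zero]

/-- Two nearly active plates with centres `g c`, `g c'` are closer than `4 ε`. -/
theorem near_close {c c' : V} {g : ℝ} (hg : 0 < g) {v : V} (h1 : ‖v - g • c‖ < 2 * ε * g)
    (h2 : ‖v - g • c'‖ < 2 * ε * g) : ‖c - c'‖ < 4 * ε := by
  have h4 : g * ‖c - c'‖ = ‖(v - g • c') - (v - g • c)‖ := by
    have : (v - g • c') - (v - g • c) = g • (c - c') := by rw [smul_sub]; abel
    rw [this, norm_smul, Real.norm_eq_abs, abs_of_pos hg]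
  have h5 := norm_sub_le (v - g • c') (v - g • c)
  rw [← h4] at h5
  have h6 : g * ‖c - c'‖ < g * (4 * ε) := by linarith
  exact lt_of_mul_lt_mul_left h6 hg.le

theorem near_slab (h : LAdm i₀ e j ε R M K D) (hs : x.1 ≠ 0)
    (h1 : -ε * ‖x.1‖ < (lplates i₀ e ε R M K D θ u).rho τ .slab x) : ‖kap x.1‖ = 1 := by
  have hM := LAdm.M_pos h
  obtain ⟨h2, h3⟩ := collar hs hM (η := ε) (by linarith [h.hM, h.hR, h.hε])
    (lt_of_lt_of_le h1 (min_le_right _ _))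
  exact norm_kap_of_le h2.le h3

theorem near_oth {a : κ} (h1 : -ε * ‖x.1‖ < (lplates i₀ e ε R M K D θ u).rho τ (.sh (.inl a)) x) :
    ‖x.2 - ‖x.1‖ • D.b a (kap x.1)‖ < 2 * ε * ‖x.1‖ := by
  have : ‖x.2 - ‖x.1‖ • D.b a (kap x.1)‖ < ε * ‖x.1‖ + ε * ‖x.1‖ := near_tp h1
  linarith

theorem near_k (h : LAdm i₀ e j ε R M K D) (hs : x.1 ≠ 0)
    (h1 : -ε * ‖x.1‖ < (lplates i₀ e ε R M K D θ u).rho τ (.sh (.inr true)) x) :
    ‖x.2 - ‖x.1‖ • D.bk (kap x.1)‖ < 2 * ε * ‖x.1‖ ∧ kap x.1 i₀ ≤ 0 := by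
  have h3 := (near_left h hs (lt_of_lt_of_le h1 (min_le_right _ _))).2.1
  have h2 : ‖x.2 - ‖x.1‖ • D.bk (lf i₀ 0 (kap x.1))‖ < ε * ‖x.1‖ + ε * ‖x.1‖ := near_tp h1
  rw [lf_eq_self h3] at h2
  exact ⟨by linarith, h3⟩

theorem near_t (h : LAdm i₀ e j ε R M K D) (hs : x.1 ≠ 0)
    (h1 : -ε * ‖x.1‖ < (lplates i₀ e ε R M K D θ u).rho τ (.sh (.inr false)) x) :
    ‖x.2 - ‖x.1‖ • D.vj‖ < (D.r0 + 2 * ε) * ‖x.1‖ ∧ kap x.1 i₀ ≤ 0 := by
  have h3 := (near_left h hs (lt_of_lt_of_le h1 (min_le_right _ _))).2.1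
  have hg : 0 < ‖x.1‖ := norm_pos_iff.mpr hs
  have hr := LAdm.r0_pos h
  have h2 : ‖x.2 - ‖x.1‖ • D.vj - lT D.r0 K (u τ) ‖x.1‖ (x.1.2 i₀) x.1.1 • D.f‖ <
      ε * ‖x.1‖ + ε * ‖x.1‖ := near_tp h1
  have h4 : ‖lT D.r0 K (u τ) ‖x.1‖ (x.1.2 i₀) x.1.1 • D.f‖ ≤ D.r0 * ‖x.1‖ := by
    rw [norm_smul, h.ff, mul_one, Real.norm_eq_abs, abs_of_nonneg (lT_nonneg _ _ _ _ _ _)]
    exact lT_le (by positivity) _ _ _ _
  have h5 := norm_add_le (x.2 - ‖x.1‖ • D.vj -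
    lT D.r0 K (u τ) ‖x.1‖ (x.1.2 i₀) x.1.1 • D.f) (lT D.r0 K (u τ) ‖x.1‖ (x.1.2 i₀) x.1.1 • D.f)
  rw [sub_add_cancel] at h5
  exact ⟨by linarith, h3⟩

/-- `c` is far from `vj`. -/
theorem far_vj {c vj : V} {g : ℝ} (hg : 0 < g) {v : V} {A B : ℝ} (h1 : ‖v - g • c‖ < A * g)
    (h2 : ‖v - g • vj‖ < B * g) : ‖c - vj‖ < A + B := by
  have h4 : g * ‖c - vj‖ = ‖(v - g • vj) - (v - g • c)‖ := by
    have : (v - g • vj) - (v - g • c) = g • (c - vj) := by rw [smul_sub]; abel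
    rw [this, norm_smul, Real.norm_eq_abs, abs_of_pos hg]
  have h5 := norm_sub_le (v - g • vj) (v - g • c)
  rw [← h4] at h5
  have h6 : g * ‖c - vj‖ < g * (A + B) := by linarith
  exact lt_of_mul_lt_mul_left h6 hg.le

/-- **Separation**, up to symmetry: nearly active plates are equal, or both have imaginary part
`⟪v, e⟫`. -/
theorem sep_aux (h : LAdm i₀ e j ε R M K D) (hθ : θ τ ∈ Icc (0 : ℝ) 1) (hs : x.1 ≠ 0)
    {a a' : HIx κ} (h1 : -ε * ‖x.1‖ < (lplates i₀ e ε R M K D θ u).rho τ a x)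
    (h2 : -ε * ‖x.1‖ < (lplates i₀ e ε R M K D θ u).rho τ a' x) :
    a = a' ∨ (lplates i₀ e ε R M K D θ u).be τ a x = inner ℝ x.2 e := by
  have hg : 0 < ‖x.1‖ := norm_pos_iff.mpr hs
  have hr := LAdm.r0_pos h
  have hε := h.hε
  have hr' := h.hr
  match a, h1 with
  | .slab, h1 => exact Or.inr rfl
  | .fold, h1 => exact Or.inr (be_fold h)
  | .sh (.inr false), h1 => exact Or.inr (be_t h)
  | .sh (.inl i), h1 =>
    have n1 := near_oth h1
    match a', h2 with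
    | .slab, h2 => exact Or.inr (be_oth_collar h i (near_slab h hs h2))
    | .sh (.inl i'), h2 =>
      left
      by_contra hne
      have h3 := near_close hg n1 (near_oth h2)
      have h4 := h.hd i i' (fun h5 => hne (by rw [h5])) _ (kap_mem x.1)
      linarith
    | .sh (.inr true), h2 =>
      obtain ⟨h3, h4⟩ := near_k h hs h2
      have h5 := near_close hg h3 n1
      have h6 := h.dk _ (kap_mem x.1) h4 i
      linarith
    | .sh (.inr false), h2 =>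
      obtain ⟨h3, h4⟩ := near_t h hs h2
      by_cases hij : i = j
      · right
        rw [hij]
        exact be_j h (by linarith)
      · have h5 := far_vj hg n1 h3
        have h6 := h.dj _ (kap_mem x.1) (by linarith) i hij
        linarith
    | .fold, h2 =>
      obtain ⟨-, -, -, h4, h3, -⟩ := near_fold h hθ hs h2
      by_cases hij : i = j
      · right
        rw [hij]
        exact be_j h h4
      · have h5 := far_vj hg n1 (B := 2 * D.r0 + 4 * ε) (by linarith)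
        have h6 := h.dj _ (kap_mem x.1) h4 i hij
        linarith
  | .sh (.inr true), h1 =>
    obtain ⟨n1, n2⟩ := near_k h hs h1
    match a', h2 with
    | .slab, h2 => exact Or.inr (be_k_collar h n2 (near_slab h hs h2))
    | .sh (.inl i'), h2 =>
      have h5 := near_close hg n1 (near_oth h2)
      have h6 := h.dk _ (kap_mem x.1) n2 i'
      linarith
    | .sh (.inr true), h2 => exact Or.inl rfl
    | .sh (.inr false), h2 =>
      obtain ⟨h3, h4⟩ := near_t h hs h2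
      have h5 := far_vj hg n1 h3
      have h6 := h.dkj _ (kap_mem x.1) h4
      linarith
    | .fold, h2 =>
      obtain ⟨-, -, h3, -⟩ := near_fold h hθ hs h2
      exact Or.inr (be_k h n2 h3)

end Near

/-! ### The global conditions -/

variable [Fintype κ] {i₀ : ι} {e : V} {j : κ} {ε R M K : ℝ} {D : LData κ (ι → ℝ) V} {θ u : T → ℝ} {s : Set T}

theorem continuousOn_lT {f : T × ((ℝ × (ι → ℝ)) × V) → ℝ} (r0 K : ℝ) (i₀ : ι)
    (hf : ContinuousOn f (s ×ˢ univ)) :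
    ContinuousOn (fun p : T × ((ℝ × (ι → ℝ)) × V) =>
      lT r0 K (f p) ‖p.2.1‖ (p.2.1.2 i₀) p.2.1.1) (s ×ˢ univ) := by
  have c1 : ContinuousOn (fun p : T × ((ℝ × (ι → ℝ)) × V) => r0 * ‖p.2.1‖) (s ×ˢ univ) := by
    fun_prop
  have c2 : ContinuousOn (fun p : T × ((ℝ × (ι → ℝ)) × V) => p.2.1.2 i₀) (s ×ˢ univ) := by
    fun_prop
  have c3 : ContinuousOn (fun p : T × ((ℝ × (ι → ℝ)) × V) => p.2.1.1) (s ×ˢ univ) := by
    fun_prop
  exact continuousOn_const.sup (c1.inf (continuousOn_const.mul (c2.sub (hf.mul c3))))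

/-- **The global conditions.** -/
theorem lplates_base (h : LAdm i₀ e j ε R M K D) (he : ‖e‖ = 1) (cθ : ContinuousOn θ s)
    (cu : ContinuousOn u s) (hθ : ∀ τ ∈ s, θ τ ∈ Icc (0 : ℝ) 1) :
    (lplates i₀ e ε R M K D θ u).Base s ε (fun x => ‖x.1‖) where
  hη := h.hε
  cN := by fun_prop
  nN := fun x => norm_nonneg _
  hN := fun k hk x => by rw [Prod.smul_fst, norm_smul, Real.norm_eq_abs, abs_of_nonneg hk]
  cw := by
    have c2 : ContinuousOn (fun p : T × ((ℝ × (ι → ℝ)) × V) => p.2.2) (s ×ˢ univ) := by fun_prop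
    have c3 : ContinuousOn (fun p : T × ((ℝ × (ι → ℝ)) × V) => p.2.2 - ‖p.2.1‖ • D.vj)
        (s ×ˢ univ) := by fun_prop
    have cθ' : ContinuousOn (fun p : T × ((ℝ × (ι → ℝ)) × V) => θ p.1) (s ×ˢ univ) :=
      cθ.comp continuousOn_fst (fun p hp => hp.1)
    have cu' : ContinuousOn (fun p : T × ((ℝ × (ι → ℝ)) × V) => u p.1) (s ×ˢ univ) :=
      cu.comp continuousOn_fst (fun p hp => hp.1)
    have cT := continuousOn_lT (V := V) D.r0 K i₀ cu'
    rintro (_ | (a | (_ | _)) | _)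
    · exact c2
    · exact c2.sub (continuousOn_centre (f := fun q => D.b a q.2) ((h.oth.const s).cb a)
        (B := fun _ => R) continuousOn_const (fun t ht x hx => by
          have h1 := h.hb a x hx
          have h2 := h.hε
          show ‖D.b a x‖ ≤ R
          linarith))
    · exact c3.sub (cT.smul continuousOn_const)
    · refine c2.sub (continuousOn_centre (f := fun q => D.bk (lf i₀ 0 q.2)) ?_
        (B := fun _ => R) continuousOn_const (fun t ht x hx => ?_))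
      · have h1 : ContinuousOn (fun q : T × (ι → ℝ) => lf i₀ 0 q.2) (s ×ˢ closedBall 0 1) :=
          ((continuous_lf i₀ 0).comp continuous_snd).continuousOn
        exact h.cbk.comp h1 (fun q hq => lf_maps i₀ hq.2)
      · have h1 := h.hbR _ (lf_maps i₀ hx).1 (lf_maps i₀ hx).2
        have h2 := h.hε
        show ‖D.bk (lf i₀ 0 x)‖ ≤ R
        linarith
    · have c4 : ContinuousOn (fun p : T × ((ℝ × (ι → ℝ)) × V) =>
          inner ℝ (p.2.2 - ‖p.2.1‖ • D.vj) D.f) (s ×ˢ univ) :=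
        c3.inner (𝕜 := ℝ) continuousOn_const
      have c5 : ContinuousOn (fun p : T × ((ℝ × (ι → ℝ)) × V) => K * p.2.1.2 i₀)
          (s ×ˢ univ) := by fun_prop
      have c6 : ContinuousOn (fun p : T × ((ℝ × (ι → ℝ)) × V) => 3 / 2 * D.r0 * ‖p.2.1‖)
          (s ×ˢ univ) := by fun_prop
      have c7 : ContinuousOn (fun p : T × ((ℝ × (ι → ℝ)) × V) => 2 * D.r0 * ‖p.2.1‖)
          (s ×ˢ univ) := by fun_prop
      have c8 : ContinuousOn (fun p : T × ((ℝ × (ι → ℝ)) × V) =>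
          lW D.r0 K (θ p.1) (u p.1) ‖p.2.1‖ (p.2.1.2 i₀) p.2.1.1
            (inner ℝ (p.2.2 - ‖p.2.1‖ • D.vj) D.f)) (s ×ˢ univ) :=
        (((c5.add ((continuousOn_const.sub cθ').mul c4)).add
          (cθ'.mul (c4.sub c6).abs)).sup (c4.sub c7)).sup (cT.sub c4)
      exact c3.add ((c8.sub c4).smul continuousOn_const)
  cr := by
    have c1 : ContinuousOn (fun p : T × ((ℝ × (ι → ℝ)) × V) => ‖p.2.1‖) (s ×ˢ univ) := by
      fun_prop
    rintro (_ | a | _)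
    · exact continuousOn_const.mul c1
    · exact continuousOn_const.mul c1
    · exact continuousOn_const.mul c1
  cs := by
    have c1 : ContinuousOn (fun p : T × ((ℝ × (ι → ℝ)) × V) => M * (p.2.1.1 - ‖p.2.1.2‖ / 2))
        (s ×ˢ univ) := by fun_prop
    rintro (_ | (a | a) | _)
    · show ContinuousOn (fun p : T × ((ℝ × (ι → ℝ)) × V) => M * (‖p.2.1.2‖ - |p.2.1.1|))
        (s ×ˢ univ)
      fun_prop
    · exact c1
    · have c2 : ContinuousOn (fun p : T × ((ℝ × (ι → ℝ)) × V) =>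
          M * (-(K * p.2.1.2 i₀) - 3 * D.r0 * ‖p.2.1‖)) (s ×ˢ univ) := by fun_prop
      exact c1.inf c2
    · have c2 : ContinuousOn (fun p : T × ((ℝ × (ι → ℝ)) × V) =>
          M * (K * p.2.1.2 i₀ + 4 * D.r0 * ‖p.2.1‖)) (s ×ˢ univ) := by fun_prop
      exact c1.inf c2
  cn := by
    rintro (_ | (a | (_ | _)) | _)
    · exact continuousOn_const
    · rintro ⟨τ₀, x₀⟩ ⟨hτ₀, hx₀⟩
      exact cwa_data (f := fun q => D.n a q.2) ((h.oth.const s).cn a) _ hτ₀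
        (norm_ne_zero_iff.mp hx₀)
    · exact continuousOn_const
    · rintro ⟨τ₀, x₀⟩ ⟨hτ₀, hx₀⟩
      refine cwa_data (f := fun q => D.nk (lf i₀ 0 q.2)) ?_ _ hτ₀ (norm_ne_zero_iff.mp hx₀)
      have h1 : ContinuousOn (fun q : T × (ι → ℝ) => lf i₀ 0 q.2) (s ×ˢ closedBall 0 1) :=
        ((continuous_lf i₀ 0).comp continuous_snd).continuousOn
      exact h.cnk.comp h1 (fun q hq => lf_maps i₀ hq.2)
    · exact continuousOn_const
  hw := by
    intro τ hτ a k hk x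
    have e1 : ‖(k • x).1‖ = k * ‖x.1‖ := by
      rw [Prod.smul_fst, norm_smul, Real.norm_eq_abs, abs_of_nonneg hk]
    have e2 : (k • x).2 - ‖(k • x).1‖ • D.vj = k • (x.2 - ‖x.1‖ • D.vj) := by
      rw [e1, Prod.smul_snd, smul_sub, smul_smul]
    have e3 : (k • x).1.2 i₀ = k * x.1.2 i₀ := rfl
    have e4 : (k • x).1.1 = k * x.1.1 := rfl
    match a with
    | .slab => rfl
    | .sh (.inl a) =>
      show (k • x).2 - ‖(k • x).1‖ • D.b a (kap (k • x).1) =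
        k • (x.2 - ‖x.1‖ • D.b a (kap x.1))
      rcases hk.eq_or_lt with rfl | hk'
      · simp
      · rw [e1, Prod.smul_fst, Prod.smul_snd, kap_smul hk', smul_sub, smul_smul]
    | .sh (.inr true) =>
      show (k • x).2 - ‖(k • x).1‖ • D.bk (lf i₀ 0 (kap (k • x).1)) =
        k • (x.2 - ‖x.1‖ • D.bk (lf i₀ 0 (kap x.1)))
      rcases hk.eq_or_lt with rfl | hk'
      · simp
      · rw [e1, Prod.smul_fst, Prod.smul_snd, kap_smul hk', smul_sub, smul_smul]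
    | .sh (.inr false) =>
      show (k • x).2 - ‖(k • x).1‖ • D.vj -
        lT D.r0 K (u τ) ‖(k • x).1‖ ((k • x).1.2 i₀) (k • x).1.1 • D.f =
        k • (x.2 - ‖x.1‖ • D.vj - lT D.r0 K (u τ) ‖x.1‖ (x.1.2 i₀) x.1.1 • D.f)
      rw [e2, e1, e3, e4, lT_smul hk, smul_sub k (x.2 - ‖x.1‖ • D.vj), smul_smul]
    | .fold =>
      show (k • x).2 - ‖(k • x).1‖ • D.vj +
        (lW D.r0 K (θ τ) (u τ) ‖(k • x).1‖ ((k • x).1.2 i₀) (k • x).1.1
          (inner ℝ ((k • x).2 - ‖(k • x).1‖ • D.vj) D.f) -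
          inner ℝ ((k • x).2 - ‖(k • x).1‖ • D.vj) D.f) • D.f =
        k • (x.2 - ‖x.1‖ • D.vj +
        (lW D.r0 K (θ τ) (u τ) ‖x.1‖ (x.1.2 i₀) x.1.1 (inner ℝ (x.2 - ‖x.1‖ • D.vj) D.f) -
          inner ℝ (x.2 - ‖x.1‖ • D.vj) D.f) • D.f)
      rw [e2, e1, e3, e4, real_inner_smul_left, lW_smul hk, ← mul_sub, smul_add, smul_smul]
  hr := by
    intro τ hτ a k hk x
    have e1 : ‖(k • x).1‖ = k * ‖x.1‖ := by
      rw [Prod.smul_fst, norm_smul, Real.norm_eq_abs, abs_of_nonneg hk]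
    match a with
    | .slab =>
      show R * ‖(k • x).1‖ = k * (R * ‖x.1‖)
      rw [e1]; ring
    | .sh _ =>
      show ε * ‖(k • x).1‖ = k * (ε * ‖x.1‖)
      rw [e1]; ring
    | .fold =>
      show ε * ‖(k • x).1‖ = k * (ε * ‖x.1‖)
      rw [e1]; ring
  hs := by
    intro τ hτ a k hk x
    have e1 : ‖(k • x).1‖ = k * ‖x.1‖ := by
      rw [Prod.smul_fst, norm_smul, Real.norm_eq_abs, abs_of_nonneg hk]
    have e3 : (k • x).1.2 i₀ = k * x.1.2 i₀ := rfl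
    have e4 : (k • x).1.1 = k * x.1.1 := rfl
    have e5 : ‖(k • x).1.2‖ = k * ‖x.1.2‖ := by
      rw [Prod.smul_fst, Prod.smul_snd, norm_smul, Real.norm_eq_abs, abs_of_nonneg hk]
    match a with
    | .slab =>
      show M * (‖(k • x).1.2‖ - |(k • x).1.1|) = k * (M * (‖x.1.2‖ - |x.1.1|))
      rw [e4, e5, abs_mul, abs_of_nonneg hk]; ring
    | .sh (.inl _) =>
      show M * ((k • x).1.1 - ‖(k • x).1.2‖ / 2) = k * (M * (x.1.1 - ‖x.1.2‖ / 2))
      rw [e4, e5]; ring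
    | .sh (.inr _) =>
      show min (M * ((k • x).1.1 - ‖(k • x).1.2‖ / 2))
        (M * (-(K * (k • x).1.2 i₀) - 3 * D.r0 * ‖(k • x).1‖)) =
        k * min (M * (x.1.1 - ‖x.1.2‖ / 2)) (M * (-(K * x.1.2 i₀) - 3 * D.r0 * ‖x.1‖))
      rw [e1, e3, e4, e5, mul_min_of_nonneg _ _ hk]
      congr 1 <;> ring
    | .fold =>
      show min (M * ((k • x).1.1 - ‖(k • x).1.2‖ / 2))
        (M * (K * (k • x).1.2 i₀ + 4 * D.r0 * ‖(k • x).1‖)) =
        k * min (M * (x.1.1 - ‖x.1.2‖ / 2)) (M * (K * x.1.2 i₀ + 4 * D.r0 * ‖x.1‖))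
      rw [e1, e3, e4, e5, mul_min_of_nonneg _ _ hk]
      congr 1 <;> ring
  hn := by
    intro τ hτ a k hk x
    match a with
    | .slab => rfl
    | .sh (.inl a) =>
      show D.n a (kap (k • x).1) = D.n a (kap x.1)
      rw [Prod.smul_fst, kap_smul hk]
    | .sh (.inr true) =>
      show D.nk (lf i₀ 0 (kap (k • x).1)) = D.nk (lf i₀ 0 (kap x.1))
      rw [Prod.smul_fst, kap_smul hk]
    | .sh (.inr false) => rfl
    | .fold => rfl
  nn := by
    intro τ hτ a x hx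
    match a with
    | .slab => exact he
    | .sh (.inl a) => exact h.oth.nn () (mem_univ _) a _ (kap_mem _)
    | .sh (.inr true) =>
      exact h.nnk _ (lf_maps i₀ (kap_mem _)).1 (lf_maps i₀ (kap_mem _)).2
    | .sh (.inr false) => exact he
    | .fold => exact he
  neg := by
    intro τ hτ a x hx hN
    have h1 : x.1 = 0 := norm_eq_zero.mp hN
    have h2 : x.2 ≠ 0 := fun h2 => hx (Prod.ext h1 h2)
    have h3 : 0 < ‖x.2‖ := norm_pos_iff.mpr h2
    refine lt_of_le_of_lt (min_le_left _ _) ?_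
    have e1 : x.2 - ‖x.1‖ • D.vj = x.2 := by rw [h1, norm_zero, zero_smul, sub_zero]
    have e2 : x.1.2 i₀ = 0 := by rw [h1]; rfl
    have e3 : x.1.1 = 0 := by rw [h1]; rfl
    match a with
    | .slab =>
      show R * ‖x.1‖ - ‖x.2‖ < 0
      rw [h1, norm_zero]
      linarith
    | .sh (.inl a) =>
      show ε * ‖x.1‖ - ‖x.2 - ‖x.1‖ • D.b a (kap x.1)‖ < 0
      rw [h1, norm_zero, zero_smul, sub_zero]
      linarith
    | .sh (.inr true) =>
      show ε * ‖x.1‖ - ‖x.2 - ‖x.1‖ • D.bk (lf i₀ 0 (kap x.1))‖ < 0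
      rw [h1, norm_zero, zero_smul, sub_zero]
      linarith
    | .sh (.inr false) =>
      show ε * ‖x.1‖ - ‖x.2 - ‖x.1‖ • D.vj -
        lT D.r0 K (u τ) ‖x.1‖ (x.1.2 i₀) x.1.1 • D.f‖ < 0
      have e4 : lT D.r0 K (u τ) 0 0 0 = 0 := by
        have := lT_smul (le_refl (0 : ℝ)) D.r0 K (u τ) 0 0 0
        simpa using this
      rw [e1, e2, e3, hN, e4, zero_smul, sub_zero, mul_zero]
      linarith
    | .fold =>
      show ε * ‖x.1‖ - ‖x.2 - ‖x.1‖ • D.vj +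
        (lW D.r0 K (θ τ) (u τ) ‖x.1‖ (x.1.2 i₀) x.1.1 (inner ℝ (x.2 - ‖x.1‖ • D.vj) D.f) -
          inner ℝ (x.2 - ‖x.1‖ • D.vj) D.f) • D.f‖ < 0
      rw [e1, e2, e3, hN, mul_zero, zero_sub, neg_lt_zero]
      set l := inner ℝ x.2 D.f with hl
      set W := lW D.r0 K (θ τ) (u τ) 0 0 0 l with hW
      have p1 := abs_le_fold h.ff x.2 W
      have p2 := norm_perp_le_fold h.ff x.2 W
      rw [← hl] at p1 p2
      by_contra h4
      have h5 : ‖x.2 + (W - l) • D.f‖ = 0 := le_antisymm (not_lt.mp h4) (norm_nonneg _)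
      rw [h5] at p1 p2
      have hW0 : W = 0 := abs_nonpos_iff.mp p1
      have hl0 : l = 0 := by
        have q2 := lW_ge2 D.r0 K (θ τ) (u τ) 0 0 0 l
        have q3 := lW_ge3 D.r0 K (θ τ) (u τ) 0 0 0 l
        have q4 := lT_nonneg D.r0 K (u τ) 0 0 0
        rw [← hW, hW0] at q2 q3
        linarith
      rw [hl0, zero_smul, sub_zero] at p2
      exact h2 (norm_le_zero_iff.mp p2)
  sep := by
    intro τ hτ x hN a a' h1 h2
    have hs : x.1 ≠ 0 := norm_ne_zero_iff.mp hN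
    rcases sep_aux h (hθ τ hτ) hs h1 h2 with rfl | h3
    · rfl
    · rcases sep_aux h (hθ τ hτ) hs h2 h1 with rfl | h4
      · rfl
      · rw [h3, h4]

end Vale.Agent.P268.T.H782
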