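import Vale.Agent.P268.T.H277.Props
import Vale.Agent.P268.T.H240.LDef
import Vale.Agent.P268.T.H327.Geo
import Vale.Agent.P268.T.DeltaR

/-!
# P268, topological half: the data of SPLIT

From the hypotheses `SplitHyp` of the splitting: the data of the left family (`LAdm`) and of the
hairpin form (`HPData`, `HAdm`), for all small `ε` and large `R`, `M`, `K`.
-/

set_option linter.unusedSectionVars false

namespace Vale.Agent.P268.T.H782

open Set Filter Topology Metric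
open Vale.Agent.P268.T.H240

variable {d : ℕ} {A : Type} {b ν : A → Pk d → Vk d} {a : Pk d → Vk d} {j k : A} {v a₀ : Vk d}
  {r : ℝ}

/-- The data of the left family. -/
noncomputable def splitL (b ν : A → Pk d → Vk d) (k : A) (v a₀ : Vk d) (r : ℝ) :
    LData {i : A // i ≠ k} (Pk d) (Vk d) where
  b i := b i.1
  n i := ν i.1
  bk := b k
  nk := ν k
  vj := v
  f := a₀
  r0 := r

section Facts

variable (S : SplitHyp b ν a j k v a₀ r)

include S

theorem zero_left : ‖(0 : Pk d)‖ ≤ 1 ∧ (0 : Pk d) 0 ≤ 1 / 4 := by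
  refine ⟨by simp, ?_⟩
  show (0 : ℝ) ≤ 1 / 4
  norm_num

theorem norm_a0 : ‖a₀‖ = 1 := by
  obtain ⟨h1, h2⟩ := zero_left S
  have h3 := (S.left 0 h1 h2).2.2
  rw [← h3]
  exact (S.na 0 h1).1

theorem inner_a0 : inner ℝ a₀ (frk d).h = 0 := by
  obtain ⟨h1, h2⟩ := zero_left S
  have h3 := S.left 0 h1 h2
  rw [← h3.2.2]
  have h4 := (S.na 0 h1).2
  rwa [h3.2.1] at h4

theorem inner_v : inner ℝ v (frk d).h = 0 := by
  have h1 : ‖(Pi.single 0 (-1) : Pk d)‖ = 1 := by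
    rw [Pi.norm_single]; simp
  have h2 : (Pi.single 0 (-1) : Pk d) 0 = -1 := Pi.single_eq_same _ _
  have h3 := S.left _ h1.le (by rw [h2]; norm_num)
  rw [← h3.1]
  exact S.dat.bh () (mem_univ _) j _ h1

theorem cont_b (i : A) : ContinuousOn (b i) (closedBall 0 1) :=
  (S.dat.cb i).comp (f := fun x : Pk d => ((), x)) (by fun_prop) (fun x hx => ⟨mem_univ _, hx⟩)

theorem cont_n (i : A) : ContinuousOn (ν i) (closedBall 0 1) :=
  (S.dat.cn i).comp (f := fun x : Pk d => ((), x)) (by fun_prop) (fun x hx => ⟨mem_univ _, hx⟩)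

/-- Near the wall, on the left. -/
theorem k_near {x : Pk d} (hx : ‖x‖ ≤ 1) (h1 : -1 / 4 ≤ x 0) (h2 : x 0 ≤ 1 / 4) :
    b k x = v + (2 * r) • a₀ ∧ ν k x = (frk d).h := by
  obtain ⟨h3, h4⟩ := S.par x hx h1
  obtain ⟨h5, h6, h7⟩ := S.left x hx h2
  rw [h3, h4, h5, h6, h7]
  exact ⟨rfl, rfl⟩

/-- The distance of the other sheets to the points `v + s a₀` of the column. -/
theorem far_left {i : A} (hij : i ≠ j) (hik : i ≠ k) {x : Pk d} (hx : ‖x‖ ≤ 1)
    (h2 : x 0 ≤ 1 / 4) {s : ℝ} (hs : s ∈ Icc (0 : ℝ) (2 * r)) :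
    4 * r ≤ ‖b i x - (v + s • a₀)‖ := by
  obtain ⟨h5, h6, h7⟩ := S.left x hx h2
  have := S.far i hij hik x hx s hs
  rwa [h5, h7] at this

theorem far_j {x : Pk d} (hx : ‖x‖ ≤ 1) (h2 : x 0 ≤ 1 / 4) (s : ℝ) :
    ‖b j x - (v + s • a₀)‖ = |s| := by
  obtain ⟨h5, -, -⟩ := S.left x hx h2
  rw [h5, sub_add_cancel_left, norm_neg, norm_smul, norm_a0 S, mul_one, Real.norm_eq_abs]

theorem fark_left {x : Pk d} (hx : ‖x‖ ≤ 1) (h2 : x 0 ≤ 1 / 4) : 2 * r ≤ ‖b k x - v‖ := by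
  obtain ⟨h5, -, -⟩ := S.left x hx h2
  have := S.fark x hx
  rwa [h5] at this

/-- `k` is far from the sheet `t`. -/
theorem fark_t {x : Pk d} (hx : ‖x‖ ≤ 1) (h2 : x 0 ≤ 1 / 4) : r ≤ ‖b k x - (v + r • a₀)‖ := by
  have h1 := fark_left S hx h2
  have h3 : ‖b k x - v‖ ≤ ‖b k x - (v + r • a₀)‖ + ‖r • a₀‖ := by
    have : b k x - v = (b k x - (v + r • a₀)) + r • a₀ := by abel
    rw [this]
    exact norm_add_le _ _
  rw [norm_smul, norm_a0 S, mul_one, Real.norm_eq_abs, abs_of_pos S.hr] at h3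
  linarith

/-- All the sheets `≠ k` are at distance `≥ r` from the points `v + s a₀`, `r ≤ s ≤ 2 r`. -/
theorem far_all (i : {i : A // i ≠ k}) {x : Pk d} (hx : ‖x‖ ≤ 1) (h2 : x 0 ≤ 1 / 4) {s : ℝ}
    (hs : s ∈ Icc r (2 * r)) : r ≤ ‖b i.1 x - (v + s • a₀)‖ := by
  have hr := S.hr
  by_cases hij : i.1 = j
  · rw [hij, far_j S hx h2, abs_of_pos (by linarith [hs.1])]
    exact hs.1
  · have := far_left S hij i.2 hx h2 (s := s) ⟨by linarith [hs.1], hs.2⟩
    linarith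

/-- The hypotheses of the left family. -/
theorem split_ladm {ε R M K : ℝ} (hA : Adm ε R M b) (hε : 32 * ε ≤ r) (hMr : 2 * R ≤ M * r)
    (hK : 64 * r ≤ K) (hR : ‖v‖ + 4 * r < R) :
    LAdm 0 (frk d).h (⟨j, S.jk⟩ : {i : A // i ≠ k}) ε R M K (splitL b ν k v a₀ r) where
  oth :=
    { cb := fun i => S.dat.cb i.1
      cn := fun i => S.dat.cn i.1
      nn := fun t ht i => S.dat.nn t ht i.1
      inj := fun t ht x hx i i' h => Subtype.ext (S.dat.inj t ht x hx h)
      bh := fun t ht i => S.dat.bh t ht i.1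
      nh := fun t ht i => S.dat.nh t ht i.1 }
  ff := norm_a0 S
  fe := inner_a0 S
  ve := inner_v S
  jb := fun x hx h1 =>
    ⟨(S.left x (mem_closedBall_zero_iff.mp hx) h1).1,
      (S.left x (mem_closedBall_zero_iff.mp hx) h1).2.1⟩
  cbk := (cont_b S k).mono fun x hx => hx.1
  cnk := (cont_n S k).mono fun x hx => hx.1
  nnk := fun x hx _ => S.dat.nn () (mem_univ _) k x hx
  hbk := fun x hx _ => ⟨S.dat.bh () (mem_univ _) k x hx, S.dat.nh () (mem_univ _) k x hx⟩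
  kb := fun x hx h1 h2 => k_near S (mem_closedBall_zero_iff.mp hx) (by linarith) (by linarith)
  dkj := fun x hx h1 => fark_left S (mem_closedBall_zero_iff.mp hx) (by linarith)
  dk := fun x hx _ i => hA.hd k i.1 i.2.symm x hx
  dj := fun x hx h1 i hi => by
    have h2 := far_left S (i := i.1) (fun h => hi (Subtype.ext h)) i.2
      (mem_closedBall_zero_iff.mp hx) h1 (s := 0) ⟨le_rfl, by linarith [S.hr]⟩
    rwa [zero_smul, add_zero] at h2
  hε := hA.hε
  hr := hε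
  hR := hA.hR
  hM := hA.hM
  hMr := hMr
  hK := hK
  hb := fun i x hx => hA.hb i.1 x hx
  hbR := fun x hx _ => hA.hb k x hx
  hvR := hR
  hd := fun i i' h x hx => hA.hd i.1 i'.1 (fun h1 => h (Subtype.ext h1)) x hx

theorem rfl_h : rfl' a₀ (frk d).h = (frk d).h := by
  unfold rfl'
  rw [real_inner_comm, inner_a0 S, mul_zero, zero_smul, sub_zero]

/-- Rigidity of the hairpin near the wall. -/
theorem split_rig {x : Pk d} (hx : ‖x‖ ≤ 1) (h1 : -1 / 4 ≤ x 0) (h2 : x 0 ≤ 0) :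
    b k x = (v + (3 / 2 * r) • a₀) + (r / 2) • a₀ ∧
      v + r • a₀ = (v + (3 / 2 * r) • a₀) - (r / 2) • a₀ ∧ ν k x = (frk d).h ∧
      (frk d).h = rfl' a₀ (frk d).h := by
  obtain ⟨h3, h4⟩ := k_near S hx h1 (by linarith)
  refine ⟨?_, ?_, h4, (rfl_h S).symm⟩
  · rw [h3, add_assoc, ← add_smul]
    congr 2
    ring
  · rw [add_sub_assoc, ← sub_smul]
    congr 2
    ring

/-- **The hairpin data.** -/
theorem split_hpdata : HPData 0 (frk d).h (splitData b ν k v a₀ r) where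
  oth :=
    { cb := fun i => S.dat.cb i.1
      cn := fun i => S.dat.cn i.1
      nn := fun t ht i => S.dat.nn t ht i.1
      inj := fun t ht x hx i i' h => Subtype.ext (S.dat.inj t ht x hx h)
      bh := fun t ht i => S.dat.bh t ht i.1
      nh := fun t ht i => S.dat.nh t ht i.1 }
  cc := continuousOn_const
  cr := continuousOn_const
  hc := fun _ _ => by
    show |(0 : ℝ)| < 1
    norm_num
  hr := fun _ _ => half_pos S.hr
  cbk := (S.dat.cb k).mono fun q hq => ⟨mem_univ _, mem_closedBall_zero_iff.mpr hq.2.1⟩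
  cnk := (S.dat.cn k).mono fun q hq => ⟨mem_univ _, mem_closedBall_zero_iff.mpr hq.2.1⟩
  cbt := continuousOn_const
  cnt := continuousOn_const
  cm := continuousOn_const
  cph := continuousOn_const
  cnw := continuousOn_const
  nnk := fun _ _ x hx _ => S.dat.nn () (mem_univ _) k x (mem_closedBall_zero_iff.mpr hx)
  nnt := fun _ _ _ _ _ => (frk d).hh
  nph := fun _ _ _ _ _ => norm_a0 S
  nnw := fun _ _ _ _ _ => (frk d).hh
  hbk := fun _ _ x hx _ => ⟨S.dat.bh () (mem_univ _) k x hx, S.dat.nh () (mem_univ _) k x hx⟩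
  hbt := fun _ _ _ _ _ => ⟨by
    show inner ℝ (v + r • a₀) (frk d).h = 0
    rw [inner_add_left, real_inner_smul_left, inner_v S, inner_a0 S, mul_zero, add_zero], rfl⟩
  hm := fun _ _ _ _ _ => ⟨by
    show inner ℝ (v + (3 / 2 * r) • a₀) (frk d).h = 0
    rw [inner_add_left, real_inner_smul_left, inner_v S, inner_a0 S, mul_zero, add_zero],
    inner_a0 S, rfl⟩
  dkt := fun _ _ x hx h1 h => by
    have h1' : x 0 ≤ 0 := h1
    have h2 := fark_t S hx (by linarith)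
    have h3 : b k x = v + r • a₀ := h
    rw [h3, sub_self, norm_zero] at h2
    linarith [S.hr]
  dk := fun _ _ x hx _ i h =>
    i.2 (S.dat.inj () (mem_univ _) x (mem_closedBall_zero_iff.mpr hx) h).symm
  dt := fun _ _ x hx h1 i h => by
    have h1' : x 0 ≤ 0 := h1
    have h2 := far_all S i hx (by linarith) (s := r) ⟨le_rfl, by linarith [S.hr]⟩
    have h3 : v + r • a₀ = b i.1 x := h
    rw [← h3, sub_self, norm_zero] at h2
    linarith [S.hr]
  dtip := fun _ _ x hx h1 i μ hμ h => by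
    have h1' : x 0 = 0 := h1
    have hμ' : |μ| ≤ r / 2 := hμ
    rw [abs_le] at hμ'
    have h2 := far_all S i hx (by linarith) (s := 3 / 2 * r + μ) ⟨by linarith, by linarith⟩
    have h3 : b i.1 x = v + (3 / 2 * r) • a₀ + μ • a₀ := h
    rw [h3, add_smul, add_assoc, sub_self, norm_zero] at h2
    linarith [S.hr]
  rig := ⟨1 / 4, by norm_num, fun _ _ x hx h1 h2 => by
    have h1' : (0 : ℝ) - 1 / 4 ≤ x 0 := h1
    have h2' : x 0 ≤ 0 := h2
    exact split_rig S hx (by linarith) h2'⟩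

/-- The hypotheses of the hairpin form. -/
theorem split_hadm {ε R M K : ℝ} (hA : Adm ε R M b) (hε : 32 * ε ≤ r) (hM : 32 * R ≤ M)
    (hMr : 2 * R ≤ M * r) (hK : 64 * r ≤ K) (hR : ‖v‖ + 4 * r < R) :
    HAdm 0 ε R M K (splitData b ν k v a₀ r) := by
  have hr := S.hr
  have hεp := hA.hε
  have hKp : 0 < K := by linarith
  have h8 : 16 * (r / 2) / K ≤ 1 / 8 := by
    rw [div_le_iff₀ hKp]
    linarith
  refine ⟨hεp, hA.hR, hM, ?_, ?_, hKp, ?_, ?_, ?_, ?_, ?_, ?_⟩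
  · show R ≤ M * (r / 2)
    linarith
  · show 8 * ε ≤ r / 2
    linarith
  · rintro (i | (_ | _)) x hx
    · exact hA.hb i.1 x hx
    · show ‖v + r • a₀‖ + 2 * ε < R
      have h1 := norm_add_le v (r • a₀)
      rw [norm_smul, norm_a0 S, mul_one, Real.norm_eq_abs, abs_of_pos hr] at h1
      linarith
    · exact hA.hb k _ (mem_closedBall_zero_iff.mpr (lf_mem (by simp [splitData])
        (mem_closedBall_zero_iff.mp hx)))
  · intro x _ _
    show ‖v + (3 / 2 * r) • a₀‖ + 2 * (r / 2) < R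
    have h1 := norm_add_le v ((3 / 2 * r) • a₀)
    rw [norm_smul, norm_a0 S, mul_one, Real.norm_eq_abs, abs_of_pos (by linarith)] at h1
    linarith
  · have key1 : ∀ (i : {i : A // i ≠ k}) (x : Pk d), x ∈ closedBall (0 : Pk d) 1 → x 0 ≤ 0 →
        4 * ε ≤ ‖b i.1 x - (v + r • a₀)‖ := fun i x hx h1 => by
      have := far_all S i (mem_closedBall_zero_iff.mp hx) (by linarith) (s := r)
        ⟨le_rfl, by linarith⟩
      linarith
    have key2 : ∀ x : Pk d, x ∈ closedBall (0 : Pk d) 1 → x 0 ≤ 0 →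
        4 * ε ≤ ‖b k x - (v + r • a₀)‖ := fun x hx h1 => by
      have := fark_t S (mem_closedBall_zero_iff.mp hx) (by linarith)
      linarith
    have key3 : ∀ x : Pk d, x 0 ≤ 0 → lf 0 0 x = x := fun x h1 => by
      unfold lf
      rw [min_eq_left h1, Function.update_eq_self]
    have key4 : ∀ (i : {i : A // i ≠ k}) (x : Pk d), x ∈ closedBall (0 : Pk d) 1 →
        4 * ε ≤ ‖b i.1 x - b k x‖ := fun i x hx => hA.hd i.1 k i.2 x hx
    rintro (i | (_ | _)) (i' | (_ | _)) hne x hx hw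
    · exact hA.hd i.1 i'.1 (fun h => hne (congrArg Sum.inl (Subtype.ext h))) x hx
    · exact key1 i x hx (hw (Or.inr rfl))
    · have h1 : x 0 ≤ 0 := hw (Or.inr rfl)
      show 4 * ε ≤ ‖b i.1 x - b k (lf 0 0 x)‖
      rw [key3 x h1]
      exact key4 i x hx
    · show 4 * ε ≤ ‖(v + r • a₀) - b i'.1 x‖
      rw [norm_sub_rev]
      exact key1 i' x hx (hw (Or.inl rfl))
    · exact absurd rfl hne
    · have h1 : x 0 ≤ 0 := hw (Or.inl rfl)
      show 4 * ε ≤ ‖(v + r • a₀) - b k (lf 0 0 x)‖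
      rw [key3 x h1, norm_sub_rev]
      exact key2 x hx h1
    · have h1 : x 0 ≤ 0 := hw (Or.inl rfl)
      show 4 * ε ≤ ‖b k (lf 0 0 x) - b i'.1 x‖
      rw [key3 x h1, norm_sub_rev]
      exact key4 i' x hx
    · have h1 : x 0 ≤ 0 := hw (Or.inl rfl)
      show 4 * ε ≤ ‖b k (lf 0 0 x) - (v + r • a₀)‖
      rw [key3 x h1]
      exact key2 x hx h1
    · exact absurd rfl hne
  · intro i x hx h1 μ hμ
    have h1' : |x 0 - 0| ≤ 16 * (r / 2) / K := h1
    have hμ' : |μ| ≤ r / 2 := hμ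
    rw [sub_zero] at h1'
    rw [abs_le] at hμ'
    have h2 := far_all S i (mem_closedBall_zero_iff.mp hx)
      (by linarith [le_abs_self (x 0)]) (s := 3 / 2 * r + μ) ⟨by linarith, by linarith⟩
    show 8 * ε ≤ ‖b i.1 x - (v + (3 / 2 * r) • a₀ + μ • a₀)‖
    rw [add_assoc, ← add_smul]
    linarith
  · intro x hx h1 h2
    have h1' : (0 : ℝ) - 16 * (r / 2) / K ≤ x 0 := h1
    have h2' : x 0 ≤ 0 := h2
    exact split_rig S (mem_closedBall_zero_iff.mp hx) (by linarith) h2'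
  · show |(0 : ℝ)| + 16 * (r / 2) / K < 1
    rw [abs_zero]
    linarith

end Facts

/-- **Parameters for the splitting.** -/
theorem split_params [Fintype A] (S : SplitHyp b ν a j k v a₀ r) :
    ∃ ε₁ > 0, ∃ R₁ > 0, ∀ ε ∈ Ioc (0 : ℝ) ε₁, ∀ R ≥ R₁, ∀ M K : ℝ, 32 * R ≤ M → 2 * R ≤ M * r →
      64 * r ≤ K → Adm ε R M b ∧
        LAdm 0 (frk d).h (⟨j, S.jk⟩ : {i : A // i ≠ k}) ε R M K (splitL b ν k v a₀ r) ∧
        HAdm 0 ε R M K (splitData b ν k v a₀ r) := by
  have hr := S.hr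
  obtain ⟨ε₀, hε₀, R₀, hR₀, hA⟩ := exists_adm (s := (univ : Set Unit)) isCompact_univ S.dat
  refine ⟨min ε₀ (r / 32), lt_min hε₀ (by positivity), max R₀ (‖v‖ + 4 * r + 1),
    lt_max_of_lt_left hR₀, fun ε hε R hR M K hM hMr hK => ?_⟩
  have h1 : ε ≤ ε₀ := hε.2.trans (min_le_left _ _)
  have h2 : ε ≤ r / 32 := hε.2.trans (min_le_right _ _)
  have h3 : R₀ ≤ R := (le_max_left _ _).trans hR
  have h4 : ‖v‖ + 4 * r + 1 ≤ R := (le_max_right _ _).trans hR
  have hRp : 0 < R := hR₀.trans_le h3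
  have hAd : Adm ε R M b := hA ε ⟨hε.1, h1⟩ R h3 M (by linarith) () (mem_univ _)
  exact ⟨hAd, split_ladm S hAd (by linarith) hMr hK (by linarith),
    split_hadm S hAd (by linarith) hM hMr hK (by linarith)⟩

end Vale.Agent.P268.T.H782
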