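import Vale.Agent.P268.T.H782.SplitData
import Vale.Agent.P268.T.H293.ZipDef

/-!
# P268, topological half: the data of SPLIT satisfy the hypotheses of the ZIP
-/

set_option linter.unusedSectionVars false

namespace Vale.Agent.P268.T.H782

open Set Filter Topology Metric

variable {d : ℕ} {A : Type} [DecidableEq A] {b ν : A → Pk d → Vk d} {a : Pk d → Vk d} {j k : A}
  {v a₀ : Vk d} {r : ℝ}

theorem split_zdat (S : SplitHyp b ν a j k v a₀ r) {ε : ℝ} (hε : ε ≤ r) :
    Z293.ZDat 0 (frk d).h ε j k b ν where
  dat := S.dat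
  jk := S.jk
  nu := fun x hx h1 => (S.par x (mem_closedBall_zero_iff.mp hx) (by linarith)).2
  perp := fun x hx h1 => by
    have hx' := mem_closedBall_zero_iff.mp hx
    rw [(S.par x hx' (by linarith)).1, add_sub_cancel_left, real_inner_smul_left, (S.na x hx').2,
      mul_zero]
  sepi := fun i hij hik x hx h1 θ hθ => by
    have hx' := mem_closedBall_zero_iff.mp hx
    have hr := S.hr
    have h2 := S.far i hij hik x hx' ((1 - θ) * (2 * r))
      ⟨mul_nonneg (by linarith [hθ.2]) (by linarith), by nlinarith [hθ.1]⟩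
    have h3 : b k x + θ • (b j x - b k x) = b j x + ((1 - θ) * (2 * r)) • a x := by
      rw [(S.par x hx' (by linarith)).1]
      module
    rw [h3]
    linarith
  cL := fun i x hx t h1 ht => by
    have hx' := mem_closedBall_zero_iff.mp hx
    rw [abs_le] at h1 ht
    obtain ⟨w1, w2, -⟩ := S.win i
    have hn : ‖Function.update x 0 t‖ ≤ 1 :=
      (nupd_le x 0 t).trans (max_le (abs_le.mpr ⟨by linarith, by linarith⟩) hx')
    have e1 : Function.update x 0 t 0 = t := Function.update_self _ _ _
    have e2 : ∀ l, l ≠ 0 → Function.update x 0 t l = x l := fun l hl =>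
      Function.update_of_ne hl _ _
    exact ⟨w1 _ hn (by rw [e1]; linarith) (by rw [e1]; linarith) x hx' (by linarith) (by linarith) e2,
      w2 _ hn (by rw [e1]; linarith) (by rw [e1]; linarith) x hx' (by linarith) (by linarith) e2⟩
  cR := fun i x hx y hy h1 h2 =>
    S.cst i x y (mem_closedBall_zero_iff.mp hx) (mem_closedBall_zero_iff.mp hy) h1 h2

end Vale.Agent.P268.T.H782
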